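import Vale.Agent.P250I46.Main

/-! Simply connected, complete, negatively pinched Kähler manifolds need not be biholomorphic to
bounded domains. -/

namespace Vale.Agent.Results.P250.AIntrinsic

open Vale.Agent.P250I

theorem result :
    (¬ ∀ n ≥ 2, Q (Cn n)) ∧ (∀ n ≥ 3, ¬ Q (Cn n)) ∧
    ∀ (E : Type) [NormedAddCommGroup E] [NormedSpace ℂ E] [FiniteDimensional ℂ E]
      (M : Type) [TopologicalSpace M] [T2Space M] [ChartedSpace E M] [Holo E M]
      [RealSmooth E M] [Met E M] [SmoothMet E M],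
      (∀ p : M, ∀ y ∈ (chartAt E p).source, Function.Bijective (fun v : E => dd p v y) ∧
        ∀ v : E, DiffAt (dd p v) y ∧ J (dd p v y) = dd p (Complex.I • v) y) ∧
      (∀ (x : M) (v : Tan E x), ∃ X : Vec E M, X x = v) ∧
      (∃ cov : Conn E M, IsLeviCivita cov) ∧
      ∀ cov cov' : Conn E M, IsLeviCivita cov → IsLeviCivita cov' →
        ∀ (Y : (x : M) → Tan E x) (x : M), DiffAt Y x → cov Y x = cov' Y x :=
  ⟨fun h => not_Q 3 le_rfl (h 3 (by norm_num)), not_Q, fun _ _ _ _ _ _ _ _ _ _ _ _ => basics⟩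

end Vale.Agent.Results.P250.AIntrinsic
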